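import Mathlib

open MeasureTheory Set
open scoped ENNReal

namespace Vale.Agent.Lib.P237.H41

/-- the chart `x ↦ (x 2, (x 0, x 1))` of `EuclideanSpace ℝ (Fin 3)` -/
noncomputable def cylChart (x : EuclideanSpace ℝ (Fin 3)) : ℝ × (ℝ × ℝ) :=
  Prod.map id (MeasurableEquiv.finTwoArrow (α := ℝ))
    (MeasurableEquiv.piFinSuccAbove (fun _ : Fin 3 => ℝ) (Fin.last 2) (WithLp.ofLp x))

theorem cylChart_apply (x : EuclideanSpace ℝ (Fin 3)) : cylChart x = (x 2, (x 0, x 1)) := by
  rfl

theorem cylChart_measurePreserving : MeasurePreserving cylChart volume volume := by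
  have h1 : MeasurePreserving (@WithLp.ofLp 2 (Fin 3 → ℝ)) volume volume :=
    PiLp.volume_preserving_ofLp (Fin 3)
  have h2 : MeasurePreserving (MeasurableEquiv.piFinSuccAbove (fun _ : Fin 3 => ℝ) (Fin.last 2))
      volume volume :=
    volume_preserving_piFinSuccAbove (fun _ : Fin 3 => ℝ) (Fin.last 2)
  have h3 : MeasurePreserving (Prod.map (id : ℝ → ℝ) (MeasurableEquiv.finTwoArrow (α := ℝ)))
      ((volume : Measure ℝ).prod (volume : Measure (Fin 2 → ℝ)))
      ((volume : Measure ℝ).prod (volume : Measure (ℝ × ℝ))) :=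
    (MeasurePreserving.id volume).prod (volume_preserving_finTwoArrow ℝ)
  exact h3.comp (h2.comp h1)

/-- Volume of a cylinder set in `EuclideanSpace ℝ (Fin 3)`: base `S` in the first two
coordinates, `T` in the third. -/
theorem cyl_volume (S : Set (ℝ × ℝ)) (T : Set ℝ) (hS : MeasurableSet S) (hT : MeasurableSet T) :
    volume {x : EuclideanSpace ℝ (Fin 3) | (x 0, x 1) ∈ S ∧ x 2 ∈ T} = volume S * volume T := by
  have heq : {x : EuclideanSpace ℝ (Fin 3) | (x 0, x 1) ∈ S ∧ x 2 ∈ T} =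
      cylChart ⁻¹' (T ×ˢ S) := by
    ext x
    simp only [Set.mem_ofPred_eq, mem_preimage, cylChart_apply, mem_prod]
    tauto
  rw [heq, cylChart_measurePreserving.measure_preimage (hT.prod hS).nullMeasurableSet,
    Measure.volume_eq_prod, Measure.prod_prod, mul_comm]

/-- volume of the right prism over `D` of height `h` -/
theorem prism_volume (D : Set (ℝ × ℝ)) (hD : MeasurableSet D) (h : ℝ) :
    volume {x : EuclideanSpace ℝ (Fin 3) | (x 0, x 1) ∈ D ∧ 0 ≤ x 2 ∧ x 2 ≤ h} =
      ENNReal.ofReal h * volume D := by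
  have := cyl_volume D (Icc 0 h) hD measurableSet_Icc
  simp only [mem_Icc] at this
  rw [this, Real.volume_Icc, sub_zero, mul_comm]

/-- volume of the symmetric slab-cylinder `{(x 0, x 1) ∈ W, |x 2| ≤ r}` -/
theorem slab_volume (W : Set (ℝ × ℝ)) (hW : MeasurableSet W) (r : ℝ) :
    volume {x : EuclideanSpace ℝ (Fin 3) | (x 0, x 1) ∈ W ∧ |x 2| ≤ r} =
      2 * ENNReal.ofReal r * volume W := by
  have := cyl_volume W (Icc (-r) r) hW measurableSet_Icc
  simp only [mem_Icc, ← abs_le] at this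
  rw [this, Real.volume_Icc, mul_comm]
  congr 1
  rw [sub_neg_eq_add, ← two_mul, ENNReal.ofReal_mul (by norm_num)]
  simp

end Vale.Agent.Lib.P237.H41
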