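import Vale.Agent.Lib.P237.helper41.Sweep

open MeasureTheory Set
open scoped Pointwise ENNReal RealInnerProductSpace

namespace Vale.Agent.Lib.P237.H41

theorem inner_E3 (x a : EuclideanSpace ℝ (Fin 3)) :
    inner ℝ x a = x 0 * a 0 + x 1 * a 1 + x 2 * a 2 := by
  simp only [PiLp.inner_apply, Fin.sum_univ_three, RCLike.inner_apply, conj_trivial]
  ring

/-- Step 2: the area of the image of the right prism over `D` of height `h` under
`x ↦ (⟪x, a⟫, ⟪x, b⟫)` is at least `|a0 b1 - a1 b0| |D| + h |a2 (b0 d0 + b1 d1) - b2 (a0 d0 + a1 d1)|`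
for every `d = p - q`, `p q ∈ D`. -/
theorem prism_proj_area (D : Set (ℝ × ℝ)) (hD : IsCompact D) (hc : Convex ℝ D) (h : ℝ)
    (hh : 0 ≤ h) (a b : EuclideanSpace ℝ (Fin 3)) (p q : ℝ × ℝ) (hp : p ∈ D) (hq : q ∈ D) :
    ENNReal.ofReal |a 0 * b 1 - a 1 * b 0| * volume D +
      ENNReal.ofReal (h * |a 2 * (b 0 * (p.1 - q.1) + b 1 * (p.2 - q.2)) -
        b 2 * (a 0 * (p.1 - q.1) + a 1 * (p.2 - q.2))|) ≤
    volume ((fun x : EuclideanSpace ℝ (Fin 3) => (inner ℝ x a, inner ℝ x b)) ''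
      {x : EuclideanSpace ℝ (Fin 3) | (x 0, x 1) ∈ D ∧ 0 ≤ x 2 ∧ x 2 ≤ h}) := by
  set M := colMap (a 0, b 0) (a 1, b 1) with hM
  have hMapp : ∀ z : ℝ × ℝ, M z = (a 0 * z.1 + a 1 * z.2, b 0 * z.1 + b 1 * z.2) := by
    intro z
    rw [hM, colMap_apply]
    ext
    · simp; ring
    · simp; ring
  set E := M '' D with hE
  have hEc : IsCompact E := hD.image (LinearMap.continuous_of_finiteDimensional M)
  have hEconv : Convex ℝ E := hc.linear_image M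
  have hEvol : volume E = ENNReal.ofReal |a 0 * b 1 - a 1 * b 0| * volume D := by
    rw [hE, Measure.addHaar_image_linearMap, hM, det_colMap]
    have : (a 0, b 0).1 * (a 1, b 1).2 - (a 0, b 0).2 * (a 1, b 1).1 = a 0 * b 1 - a 1 * b 0 := by
      simp only; ring
    rw [this]
  have hsweep := sweep_lemma E hEc hEconv (h • ((a 2, b 2) : ℝ × ℝ)) (M p) (M q)
    ⟨p, hp, rfl⟩ ⟨q, hq, rfl⟩
  have hdet : |(h • ((a 2, b 2) : ℝ × ℝ)).1 * (M p - M q).2 -
      (h • ((a 2, b 2) : ℝ × ℝ)).2 * (M p - M q).1| =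
      h * |a 2 * (b 0 * (p.1 - q.1) + b 1 * (p.2 - q.2)) -
        b 2 * (a 0 * (p.1 - q.1) + a 1 * (p.2 - q.2))| := by
    rw [hMapp, hMapp]
    simp only [Prod.smul_fst, Prod.smul_snd, smul_eq_mul, Prod.fst_sub, Prod.snd_sub]
    conv_rhs => rw [← abs_of_nonneg hh, ← abs_mul]
    congr 1
    ring
  rw [hdet, hEvol] at hsweep
  refine le_trans hsweep (measure_mono ?_)
  rintro _ ⟨e, ⟨p', hp', rfl⟩, z, ⟨α, β, hα, hβ, hαβ, rfl⟩, rfl⟩
  refine ⟨!₂[p'.1, p'.2, β * h], ⟨?_, ?_, ?_⟩, ?_⟩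
  · simpa using hp'
  · simp; positivity
  · simp; nlinarith
  · simp only [inner_E3, hMapp]
    ext
    · simp; ring
    · simp; ring

end Vale.Agent.Lib.P237.H41
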