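import Mathlib

open MeasureTheory Set
open scoped Pointwise ENNReal

namespace Vale.Agent.Lib.P237.H41

/-- the planar linear map with columns `d` and `s`: `(x, y) ↦ x • d + y • s` -/
noncomputable def colMap (d s : ℝ × ℝ) : (ℝ × ℝ) →ₗ[ℝ] (ℝ × ℝ) :=
  (LinearMap.fst ℝ ℝ ℝ).smulRight d + (LinearMap.snd ℝ ℝ ℝ).smulRight s

theorem colMap_apply (d s x : ℝ × ℝ) : colMap d s x = x.1 • d + x.2 • s := by
  simp [colMap]

theorem det_colMap (d s : ℝ × ℝ) : LinearMap.det (colMap d s) = d.1 * s.2 - d.2 * s.1 := by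
  rw [← LinearMap.det_toMatrix (Module.Basis.finTwoProd ℝ), Matrix.det_fin_two]
  simp [LinearMap.toMatrix_apply, colMap_apply, Module.Basis.finTwoProd_zero,
    Module.Basis.finTwoProd_one, Module.Basis.coe_finTwoProd_repr]
  ring

theorem volume_unit_square :
    volume ((Icc (0 : ℝ) 1) ×ˢ (Icc (0 : ℝ) 1) : Set (ℝ × ℝ)) = 1 := by
  rw [Measure.volume_eq_prod, Measure.prod_prod]
  simp

/-- area of the parallelogram `e + {x • d + y • s : x, y ∈ [0,1]}` -/
theorem volume_parallelogram (e d s : ℝ × ℝ) :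
    volume ((fun p => e + p) '' (colMap d s '' ((Icc (0 : ℝ) 1) ×ˢ (Icc (0 : ℝ) 1)))) =
      ENNReal.ofReal |d.1 * s.2 - d.2 * s.1| := by
  rw [Set.image_add_left, measure_preimage_add, Measure.addHaar_image_linearMap, det_colMap,
    volume_unit_square, mul_one]

/-- the union of the first `k` translates `A + j • s`, `j < k` -/
noncomputable def sweepU (A : Set (ℝ × ℝ)) (s : ℝ × ℝ) : ℕ → Set (ℝ × ℝ)
  | 0 => ∅
  | (k + 1) => sweepU A s k ∪ (fun x => -((k : ℝ) • s) + x) ⁻¹' A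

theorem mem_sweepU (A : Set (ℝ × ℝ)) (s : ℝ × ℝ) (x : ℝ × ℝ) :
    ∀ (k j : ℕ), j < k → -((j : ℝ) • s) + x ∈ A → x ∈ sweepU A s k := by
  intro k
  induction k with
  | zero => intro j hj; omega
  | succ k ih =>
    intro j hj hx
    rcases Nat.lt_succ_iff_lt_or_eq.1 hj with h | h
    · exact Or.inl (ih j h hx)
    · subst h; exact Or.inr hx

theorem sweepU_count (E : Set (ℝ × ℝ)) (s : ℝ × ℝ) (hA : IsClosed (E + segment ℝ 0 s)) :
    ∀ k : ℕ, volume (sweepU (E + segment ℝ 0 s) s (k + 1)) + k * volume E ≤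
      (k + 1) * volume (E + segment ℝ 0 s) := by
  set A := E + segment ℝ 0 s with hAdef
  have hEA : E ⊆ A := by
    intro e he
    exact Set.mem_add.2 ⟨e, he, 0, left_mem_segment ℝ 0 s, by simp⟩
  have hEsA : ∀ e ∈ E, e + s ∈ A := by
    intro e he
    exact Set.mem_add.2 ⟨e, he, s, right_mem_segment ℝ 0 s, rfl⟩
  have hBmeas : ∀ j : ℕ, MeasurableSet ((fun x => -((j : ℝ) • s) + x) ⁻¹' A) := by
    intro j
    exact (hA.preimage (by fun_prop)).measurableSet
  have hBvol : ∀ j : ℕ, volume ((fun x => -((j : ℝ) • s) + x) ⁻¹' A) = volume A := by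
    intro j
    exact measure_preimage_add volume _ A
  intro k
  induction k with
  | zero =>
    simp only [sweepU, Set.empty_union, Nat.cast_zero, zero_mul, add_zero, zero_add, one_mul]
    have := hBvol 0
    simp only [Nat.cast_zero] at this
    exact le_of_eq this
  | succ k ih =>
    have h1 := measure_union_add_inter (μ := volume) (sweepU A s (k + 1)) (hBmeas (k + 1))
    have h2 : volume E ≤
        volume (sweepU A s (k + 1) ∩ (fun x => -(((k + 1 : ℕ) : ℝ) • s) + x) ⁻¹' A) := by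
      have h3 : volume ((fun x => -(((k + 1 : ℕ) : ℝ) • s) + x) ⁻¹' E) = volume E :=
        measure_preimage_add volume _ E
      rw [← h3]
      apply measure_mono
      intro x hx
      have hx' : -(((k + 1 : ℕ) : ℝ) • s) + x ∈ E := hx
      refine ⟨?_, hEA hx'⟩
      apply mem_sweepU A s x (k + 1) k (Nat.lt_succ_self k)
      have := hEsA _ hx'
      have e1 : -((k : ℝ) • s) + x = -(((k + 1 : ℕ) : ℝ) • s) + x + s := by
        push_cast
        rw [add_smul, one_smul]
        abel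
      rw [e1]
      exact this
    have h4 : sweepU A s (k + 1 + 1) =
        sweepU A s (k + 1) ∪ (fun x => -(((k + 1 : ℕ) : ℝ) • s) + x) ⁻¹' A := rfl
    rw [h4]
    calc volume (sweepU A s (k + 1) ∪ (fun x => -(((k + 1 : ℕ) : ℝ) • s) + x) ⁻¹' A)
          + ((k + 1 : ℕ) : ℝ≥0∞) * volume E
        = volume (sweepU A s (k + 1) ∪ (fun x => -(((k + 1 : ℕ) : ℝ) • s) + x) ⁻¹' A)
          + volume E + (k : ℝ≥0∞) * volume E := by
          push_cast; ring
      _ ≤ volume (sweepU A s (k + 1) ∪ (fun x => -(((k + 1 : ℕ) : ℝ) • s) + x) ⁻¹' A)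
          + volume (sweepU A s (k + 1) ∩ (fun x => -(((k + 1 : ℕ) : ℝ) • s) + x) ⁻¹' A)
          + (k : ℝ≥0∞) * volume E := by gcongr
      _ = volume (sweepU A s (k + 1)) + volume A + (k : ℝ≥0∞) * volume E := by
          rw [h1, hBvol]
      _ = volume (sweepU A s (k + 1)) + (k : ℝ≥0∞) * volume E + volume A := by ring
      _ ≤ ((k : ℝ≥0∞) + 1) * volume A + volume A := by gcongr
      _ = (((k + 1 : ℕ) : ℝ≥0∞) + 1) * volume A := by push_cast; ring

/-- the parallelogram `e2 + {x • (e1 - e2) + y • (k • s)}` lies in the union of `k` translates -/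
theorem parallelogram_subset (E : Set (ℝ × ℝ)) (hc : Convex ℝ E) (s e1 e2 : ℝ × ℝ)
    (h1 : e1 ∈ E) (h2 : e2 ∈ E) (k : ℕ) :
    (fun p => e2 + p) '' (colMap (e1 - e2) (((k + 1 : ℕ) : ℝ) • s) ''
        ((Icc (0 : ℝ) 1) ×ˢ (Icc (0 : ℝ) 1))) ⊆
      sweepU (E + segment ℝ 0 s) s (k + 1) := by
  rintro _ ⟨_, ⟨⟨x, y⟩, ⟨⟨hx0, hx1⟩, ⟨hy0, hy1⟩⟩, rfl⟩, rfl⟩
  simp only at hx0 hx1 hy0 hy1
  set K : ℝ := ((k + 1 : ℕ) : ℝ) with hK
  have hKpos : 0 < K := by rw [hK]; positivity
  have hyK0 : 0 ≤ y * K := by positivity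
  set j : ℕ := min (Nat.floor (y * K)) k with hj
  have hjk : j < k + 1 := by
    have : j ≤ k := min_le_right _ _
    omega
  have hj_le : (j : ℝ) ≤ y * K := by
    have h1' : (j : ℝ) ≤ (Nat.floor (y * K) : ℝ) := by
      exact_mod_cast min_le_left (Nat.floor (y * K)) k
    exact le_trans h1' (Nat.floor_le hyK0)
  have hj_ge : y * K ≤ (j : ℝ) + 1 := by
    rcases min_choice (Nat.floor (y * K)) k with h | h
    · rw [hj, h]
      exact (Nat.lt_floor_add_one (y * K)).le
    · rw [hj, h]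
      have : y * K ≤ 1 * K := by gcongr
      rw [hK] at this ⊢
      push_cast at this ⊢
      linarith
  apply mem_sweepU _ s _ (k + 1) j hjk
  rw [colMap_apply]
  simp only
  have e : -((j : ℝ) • s) + (e2 + (x • (e1 - e2) + y • K • s)) =
      (e2 + x • (e1 - e2)) + (y * K - j) • s := by
    rw [sub_smul, mul_smul]
    abel
  rw [e]
  refine Set.mem_add.2 ⟨_, hc.add_smul_sub_mem h2 h1 ⟨hx0, hx1⟩, _, ?_, rfl⟩
  refine ⟨1 - (y * K - j), y * K - j, by linarith, by linarith, by ring, by simp⟩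

/-- Sweep lemma: for a compact convex planar set `E`, a vector `s` and two points
`e1 e2 ∈ E`, the area of `E + [0,1] s` is at least the area of `E` plus
`|det (s, e1 - e2)|`. -/
theorem sweep_lemma (E : Set (ℝ × ℝ)) (hE : IsCompact E) (hc : Convex ℝ E) (s e1 e2 : ℝ × ℝ)
    (h1 : e1 ∈ E) (h2 : e2 ∈ E) :
    volume E + ENNReal.ofReal |s.1 * (e1 - e2).2 - s.2 * (e1 - e2).1| ≤
      volume (E + segment ℝ 0 s) := by
  have hseg : IsCompact (segment ℝ (0 : ℝ × ℝ) s) := by
    rw [segment_eq_image]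
    exact isCompact_Icc.image (by fun_prop)
  have hAc : IsCompact (E + segment ℝ 0 s) := hE.add hseg
  have hAfin : volume (E + segment ℝ 0 s) ≠ ⊤ := hAc.measure_lt_top.ne
  have hEfin : volume E ≠ ⊤ := hE.measure_lt_top.ne
  set D : ℝ := |s.1 * (e1 - e2).2 - s.2 * (e1 - e2).1| with hD
  have hD0 : 0 ≤ D := abs_nonneg _
  have key : ∀ k : ℕ, ENNReal.ofReal (((k + 1 : ℕ) : ℝ) * D) + k * volume E ≤
      (k + 1) * volume (E + segment ℝ 0 s) := by
    intro k
    refine le_trans ?_ (sweepU_count E s hAc.isClosed k)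
    gcongr
    refine le_trans (le_of_eq ?_) (measure_mono (parallelogram_subset E hc s e1 e2 h1 h2 k))
    rw [volume_parallelogram]
    congr 1
    rw [hD]
    have : (e1 - e2).1 * (((k + 1 : ℕ) : ℝ) • s).2 - (e1 - e2).2 * (((k + 1 : ℕ) : ℝ) • s).1 =
        -(((k + 1 : ℕ) : ℝ) * (s.1 * (e1 - e2).2 - s.2 * (e1 - e2).1)) := by
      simp only [Prod.smul_snd, Prod.smul_fst, smul_eq_mul]
      ring
    rw [this, abs_neg, abs_mul, abs_of_nonneg (by positivity : (0 : ℝ) ≤ ((k + 1 : ℕ) : ℝ))]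
  -- pass to real numbers
  set a : ℝ := (volume (E + segment ℝ 0 s)).toReal with ha
  set e : ℝ := (volume E).toReal with he
  have hae : volume (E + segment ℝ 0 s) = ENNReal.ofReal a := (ENNReal.ofReal_toReal hAfin).symm
  have hee : volume E = ENNReal.ofReal e := (ENNReal.ofReal_toReal hEfin).symm
  have he0 : 0 ≤ e := ENNReal.toReal_nonneg
  have ha0 : 0 ≤ a := ENNReal.toReal_nonneg
  have keyR : ∀ k : ℕ, ((k : ℝ) + 1) * D + k * e ≤ ((k : ℝ) + 1) * a := by
    intro k
    have h := key k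
    rw [hae, hee] at h
    have e1' : ENNReal.ofReal (((k + 1 : ℕ) : ℝ) * D) + (k : ℝ≥0∞) * ENNReal.ofReal e =
        ENNReal.ofReal (((k : ℝ) + 1) * D + k * e) := by
      rw [ENNReal.ofReal_add (by positivity) (by positivity),
        ENNReal.ofReal_mul (by positivity : (0 : ℝ) ≤ (k : ℝ)), ENNReal.ofReal_natCast]
      push_cast
      rfl
    have e2' : ((k : ℝ≥0∞) + 1) * ENNReal.ofReal a = ENNReal.ofReal (((k : ℝ) + 1) * a) := by
      rw [ENNReal.ofReal_mul (by positivity), ENNReal.ofReal_add (by positivity) (by norm_num),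
        ENNReal.ofReal_natCast, ENNReal.ofReal_one]
    rw [e1', e2'] at h
    exact (ENNReal.ofReal_le_ofReal_iff (by positivity)).1 h
  have fin : D + e ≤ a := by
    by_contra hcon
    rw [not_le] at hcon
    obtain ⟨k, hk⟩ := exists_nat_gt (e / (D + e - a))
    have hpos : 0 < D + e - a := by linarith
    have hk' : e < (k : ℝ) * (D + e - a) := by
      rw [div_lt_iff₀ hpos] at hk
      exact hk
    have := keyR k
    nlinarith
  rw [hae, hee, ← ENNReal.ofReal_add he0 hD0]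
  exact ENNReal.ofReal_le_ofReal (by linarith)

end Vale.Agent.Lib.P237.H41
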